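import Vale.Agent.P352R.Br2
import Vale.Agent.P352R.Cf.TopB
import Vale.Agent.P352R.Cf.All3
import Vale.Agent.P352R.Cf.Cts
import Vale.Agent.P352R.L1.Top
import Vale.Agent.P352R.L22.Net
import Vale.Agent.P352R.Bz.WitF
import Vale.Agent.P352R.Bz.Net

namespace Vale.Agent.Results.P352.AAFreeF

open Vale.Agent.P352.GF Vale.Agent.P352R.P
open UniformSpace (Completion)

universe u

section

variable {D : Type u} [NormedAddCommGroup D] [InnerProductSpace ℂ D] (Q : Theory D)
  (T : Ix → Ix → Fld D) (A : (V → V) → D → D) (O : Set V) (M : VonNeumannAlgebra (Completion D))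

/-- The hypotheses. -/
def Hyp : Prop :=
  Stress0 Q T ∧ PCh Q T A ∧ (CntF Q ∨ MfA Q ∧ FSL Q) ∧ Lc1 Q A O M ∧ UVac Q

/-- The fields of `R`, smeared in a wedge `W`, commute weakly with all bounded operators that commute
with the transforms of `M` into `W`. -/
structure AfM {D' : Submodule ℂ (Completion D)} (R : Theory D') : Prop where
  aff : ∀ a b y B B' f, IsNull a → IsNull b → mdot a b = 1 → R.fld B → IsAdj B B' →
    In (Wdg a b y) f → ∀ Y, (∀ X, Trf Q O M (Wdg a b y) X → X * Y = Y * X) → ∀ v w : D',
      inner ℂ (B' (bar f) w : Completion D) (Y v) = inner ℂ (w : Completion D) (Y (B f v))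

/-- The conclusion. -/
structure Con : Prop where
  fields : MfA Q ∧ FSL Q
  nolog : NoLog Q T
  conf : ∃ T', Q.IsStress T' ∧ PCh Q T' A ∧
    ∃ (D' : Submodule ℂ (Completion D)) (Q' : Theory D') (e : Fld D → Fld D') (L : Fld D'),
      Ext0 Q Q' e ∧ AfM Q O M Q' ∧ Q'.IsStress (fun m n => e (T' m n)) ∧ Q'.IsScalar L 2 ∧
      (∀ f v, IsTest f → tr (fun m n => e (T' m n)) f v = (3 : ℂ) • L (box f) v) ∧
      ∀ Q'' : Theory D', IsEnl Q' Q'' → IsImpr Q'' (fun m n => e (T' m n))
        (improve (fun m n => e (T' m n)) L) ∧ ConfAct Q'' (improve (fun m n => e (T' m n)) L) ∧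
        CFS Q'' id (improve (fun m n => e (T' m n)) L) ∧
        ∀ B, Q'.fld B → ∃ (n : ℕ) (C : Fin n → Fld D'),
          (∀ i, DescS Q'' id (improve (fun m n => e (T' m n)) L) false (C i)) ∧
          ∀ f v, IsTest f → B f v = ∑ i, C i f v

/-- `U` is a representation of the group of similitudes. -/
def Mul : Prop := ∀ s L a s' L' a' v, 0 < s → 0 < s' → IsLor L → IsLor L' →
  Q.U s L a (Q.U s' L' a' v) = Q.U (s * s') (fun m => sim 1 L 0 (L' m)) (sim s L a a') v

/-- Wightman theories: `U` is a strongly continuous representation of the group of similitudes, the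
domain is generated from the vacuum by the smeared fields, all fields are local, and they form a
covariant vector space of countable dimension. -/
structure Wig : Prop where
  mul : Mul Q
  cont : ∀ v, ContinuousOn (fun p : ℝ × (Ix → V) × V => Q.U p.1 p.2.1 p.2.2 v)
    {p | 0 < p.1 ∧ IsLor p.2.1}
  cyc : ∀ w, Cyc Q w
  bose : ∀ B, Q.fld B → Q.bose B
  cnt : CntF Q

end

/-- **Scale invariant theories with one local von Neumann algebra, or with energy bounds, or with an
analytic vacuum, are conformally invariant; no scaling law and no spin is assumed for countably many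
fields; the hypotheses are satisfied by a theory whose stress tensor has a nonzero trace.**

(1) Hypotheses (`Hyp`). Let `T` be a symmetric conserved stress tensor of the scale invariant theory
`Q` (`Stress0`), with any behaviour under dilations; its charges on space-like hyperplanes are the
generators `A X` of the Poincaré transformations (`PCh`). The vacuum is unique (`UVac`). The fields
form a vector space of countable dimension on which the dilations and the Lorentz transformations
act (`CntF`). (Alternatively: every field is a finite sum of components of Lorentz multiplets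
(`MfA`) and has a finite scaling law, in which logarithms are allowed (`FSL`, `Scl`).) The fields
smeared in one bounded neighbourhood `O` of the origin are affiliated to a von Neumann algebra `M`,
whose transforms by similitudes that map `O` into opposite wedges commute (`Lc1`; every covariant
local net provides such an algebra). Nothing is assumed
about conformal transformations, a virial current, time ordered products, energy bounds, the
reconstruction of fields, the spectrum of scaling dimensions or Jordan blocks of the dilations.

Conclusion (`Con`). All fields are finite sums of components of multiplets and have finite scaling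
laws. The part of dimension four of `T` has no logarithms (`NoLog`), `Q` has a stress tensor `T'` of
dimension four with the charges of `T`, and `Q` extends, in the same Hilbert space, to a theory `Q'`
(`Ext0`), whose fields are affiliated to the algebras of the wedges generated by `M` (`AfM`), with a
hermitian scalar field `L` of dimension two such that the trace of `T'` is `3 □ L`. The tensor
`t = T' + (∂∂ - η □) L` is a traceless improvement of `T'` whose charges act on all fields by the
infinitesimal conformal transformations (`ConfAct`), satisfy the conformal Ward identities and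
generate the similitudes (`CFS`), for `Q'` and for all theories obtained from `Q'` by adding local
fields. Every field of `Q'` is a finite linear combination of derivatives of conformal primaries
(`DescS`).

(2) All hypotheses of (1) and of (4), in both forms, hold for a Wightman theory (`Wig`) with a nonzero
scalar field of
dimension one, an infinite dimensional Hilbert space and a stress tensor whose trace does not
annihilate the vacuum (in the proof: the free massless scalar field on Fock space, its canonical
stress tensor, and the net generated by the Weyl operators).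

(3) The part `Rep` of `Lc1` (the domain is stable under the generators of the similitudes) is
automatic for Wightman theories (`Wig`), no algebra and no stress tensor being assumed; their fields are
finite sums of components of multiplets and have finite scaling laws. It is also automatic under
`MfA` and `FSL` on the domain that the fields generate from the vacuum.

(4) No von Neumann algebra has to be assumed if the fields satisfy energy bounds (`EnB`): all fields
of `Q` are bounded by powers of the energy, and the fields of a subtheory `R` with countably many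
covariant Bose fields, for which the vacuum is cyclic, are bounded linearly by the energy; or if
the domain is generated by the fields of `Q` and the vacuum is an analytic vector for the hermitian
parts of the smeared fields of such a subtheory `R` (`AnV`; no bound on other fields). Then an
algebra `M` as in `Lc1` exists for every bounded neighbourhood `O` of the origin, and the conclusion
of (1) holds under the remaining hypotheses. -/
theorem result :
    (∀ {D : Type u} [NormedAddCommGroup D] [InnerProductSpace ℂ D] (Q : Theory D)
      (T : Ix → Ix → Fld D) (A : (V → V) → D → D) (O : Set V)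
      (M : VonNeumannAlgebra (Completion D)), Hyp Q T A O M → Con Q T A O M) ∧
    (∃ (D : Type) (_ : NormedAddCommGroup D) (_ : InnerProductSpace ℂ D) (Q : Theory D)
      (T : Ix → Ix → Fld D) (A : (V → V) → D → D) (O : Set V)
      (M : VonNeumannAlgebra (Completion D)), Hyp Q T A O M ∧ Wig Q ∧ EnB Q Q A ∧
      (∃ R, AnV Q R A) ∧
      (∃ φ, Q.IsScalar φ 1 ∧ ∃ f, IsTest f ∧ φ f Q.vac ≠ 0) ∧
      ¬FiniteDimensional ℂ (Completion D) ∧ ∃ f, IsTest f ∧ tr T f Q.vac ≠ 0) ∧
    ∀ {D : Type u} [NormedAddCommGroup D] [InnerProductSpace ℂ D] (Q : Theory D),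
      (Wig Q → MfA Q ∧ FSL Q ∧ ∃ A, Rep Q A) ∧
      (Mul Q → (∀ w, Cyc Q w) → MfA Q → FSL Q → ∃ A, Rep Q A) ∧
      ∀ R A O, EnB Q R A ∨ AnV Q R A → O ∈ nhds 0 → Bornology.IsBounded O → ∃ M, Lc1 Q A O M ∧
        ∀ T, Stress0 Q T → PCh Q T A → (CntF Q ∨ MfA Q ∧ FSL Q) → UVac Q → Con Q T A O M :=
  have m : ∀ {D : Type u} [NormedAddCommGroup D] [InnerProductSpace ℂ D] (Q : Theory D)
      (T : Ix → Ix → Fld D) (A : (V → V) → D → D) (O : Set V)
      (M : VonNeumannAlgebra (Completion D)), Hyp Q T A O M → Con Q T A O M :=
    fun Q T A _ _ ⟨hT, hA, hM, l, hU⟩ =>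
    have hN := P352R.L1.lnm l (hM.elim (P352R.L1.cd_cnt l.toRep) fun c =>
      P352R.L1.cd_fsl l.toRep c.2)
    have k : MfA Q ∧ FSL Q := hM.elim (P352R.Br.cntF hN) id
    have ⟨h, T', x, y, D', Q', e, L, z, u, r⟩ := P352R.Br.finalF Q T hT A hA k.1 k.2 _ hN hU
    ⟨k, h, T', x, y, D', Q', e, L, z, ⟨fun a b y B B' f c d g i j k Y m =>
      u a b y B B' f c d g i j k Y (P352R.L1.comm l (P352W.Net.wdg_open a b y) m)⟩, r⟩
  ⟨m, have ⟨D, i, j, Q, T, A, _, ⟨a, b, _, c, d, e, k⟩, f, g, n, p⟩ := P352R.Bz.witF
    ⟨D, i, j, Q, T, A, _, _,
      ⟨P352R.Br.stress0.2 a, b, .inl c, P352R.L1.lc1 (P352R.Br.lnm.2 d), e⟩,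
      ⟨d.mul, (P352R.Cf.cts d.toRep).cont, f, g, c⟩, n, p, k⟩,
    fun Q => ⟨fun ⟨a, b, c, d, e⟩ =>
      have ⟨x, y⟩ := (P352R.Cf.top_all ⟨a, b⟩ e d).imp_left P352R.Br.mfa.2
      ⟨x, y, P352R.Br.repF Q a c x y⟩, P352R.Br.repF Q, fun _ A O h n b =>
      (h.elim (P352R.L22.lc1 · n b) (P352R.Bz.lc1 · n b)).imp fun M l =>
        ⟨l, fun T a b c d => m Q T A O M ⟨a, b, c, l, d⟩⟩⟩⟩

end Vale.Agent.Results.P352.AAFreeF
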