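import Vale.Agent.P352R.Gz.Top

namespace Vale.Agent.Results.P352.AAGradedI

open P352R.GI

/-- **Scale invariant theories with bosons and fermions, one local algebra and polynomial energy
bounds are conformally invariant; no scaling law is assumed if the space of fields has countable
dimension, and no algebra if a subtheory has linear energy bounds or an analytic vacuum; the
hypotheses are consistent.**

(1) Hypotheses (`Hyp`). Let `T` be a symmetric conserved stress tensor of the scale invariant theory
`Q` (`Stress0`), with any behaviour under dilations; its charges on space-like hyperplanes are the
generators `A X` of the Poincaré transformations (`PCh`). The fields form a vector space of
countable dimension that is stable under dilations and Lorentz transformations (`CntF`); or every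
field is a finite sum of components of multiplets with spin (`MfA`) and has a finite scaling law, in
which logarithms are allowed (`FSL`, `Scl`). The theory is graded by `G = (-1)^F`; the fields
smeared in one bounded neighbourhood `O` of the origin are affiliated to a graded von Neumann
algebra `M` whose transforms (`Trf`) into opposite wedges commute in the graded sense (`Lg1`; every
graded local net, `LNg`, gives such an algebra, `M = N O`); the fields satisfy
polynomial energy bounds (`EBd`); the vacuum is unique (`UVac`). Nothing is assumed about conformal
transformations, a virial current, the scaling dimension of `T`, the diagonalisability of the
dilations, time ordered products, the reconstruction of fields, a bosonic sector, or spin and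
statistics.

Conclusion (`Thm`, `Cf`). Then the part of dimension four of `T` has no logarithms (`NoLog`), `Q` has
a stress tensor `T'` of dimension four with the charges of `T`, and `Q` extends, in the same Hilbert
space, to a graded theory `Q'` (`ExtG`), whose fields, smeared in a wedge, are affiliated to the
algebra generated by the transforms of `M` into the wedge (`AfT`), with a hermitian scalar Bose
field `L` of dimension two such that the trace
of `T'` is `3 □ L`. The tensor `t = T' + (∂∂ - η □) L` is a traceless improvement of `T'` whose
charges act on all fields by the infinitesimal conformal transformations (`ConfAct`), satisfy the
conformal Ward identities and generate the similitudes (`CFS`), for `Q'` and for all graded theories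
obtained from `Q'` by adding local fields. Every field of `Q'` is a finite linear combination of
derivatives of conformal primaries (`DescS`).

No algebra (`Thm.sub`). Let `Q` be graded with even vacuum and generators `A X` (`Ge`), and let `R`
be a graded subtheory (`IsEnl`: the same representation and the same vacuum, which is cyclic for the
fields of `R`; `R = Q` is allowed, `Thm.ebd`) whose fields are as in (1), in either form. Assume that
`Q` has polynomial and `R` has linear energy bounds `‖B f v‖ ≤ C (‖v‖ + ‖H v‖)` (`LEB`), or that the
domain is generated by the fields of `Q` (`Cy`) and the vacuum is an analytic vector for the
hermitian parts of the smeared fields of `R` (`Ana`, a growth condition on vacuum expectation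
values). Then `R` has a graded local net, and for every bounded neighbourhood of the origin there is
an algebra `M` as in (1) for all fields of `Q`. The generators exist (`Thm.gen`) under `Cy`, `MfA`
and `FSL`. Polynomial bounds on the matrix elements suffice (`Thm.form`).

(2) (`Wit`) All hypotheses of (1), in both forms, the hypotheses of `Thm.sub` and `Cy` hold for a
theory with a nonzero scalar field `φ` of dimension one, an infinite dimensional Hilbert space and a
stress tensor whose trace does not annihilate the vacuum: with `R = Q` (in the proof: the free
massless scalar field with its canonical stress tensor, trivially graded), and with `R` spanned by
`φ`, for which `Ana` holds too (in the proof: `Q` has all Wick polynomials in the derivatives of the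
free field). -/
theorem result :
    (∀ (D : Type*) [NormedAddCommGroup D] [InnerProductSpace ℂ D], Thm D) ∧
    ∀ b, ∃ (D : Type) (_ : NormedAddCommGroup D) (_ : InnerProductSpace ℂ D), Wit D b :=
  ⟨thm, wit⟩

end Vale.Agent.Results.P352.AAGradedI
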