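import Vale.Agent.P352R.Cf.TopR
import Vale.Agent.P352R.Cv3
import Vale.Agent.P352R.L1.Top
import Vale.Agent.P352R.Bz.Net
import Vale.Agent.P352R.Bz.WitR

namespace Vale.Agent.Results.P352.AARecF

open Vale.Agent.P352.GF Vale.Agent.P352R.P
open UniformSpace (Completion)

variable {D D' : Type*} [NormedAddCommGroup D] [InnerProductSpace ℂ D]
  [NormedAddCommGroup D'] [InnerProductSpace ℂ D']

/-- The hypotheses on the theory `Q`, the stress tensor `T` and the generators `A X` of the
similitudes. -/
structure Hyp (Q : Theory D) (T : Ix → Ix → Fld D) (A : (V → V) → D → D) : Prop where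
  stress : Stress0 Q T
  charges : PCh Q T A
  fields : CntF Q ∨ (TfGen Q ∨ MfA Q) ∧ (∀ s, 0 < s → Cov Q s one 0) ∧
    ∀ m n, ∃ F B, Scl Q (T m n) F B
  net : (∃ O M, Lc1 Q A O M) ∨ ∃ R, EnB Q R A ∨ AnV Q R A
  vac : UVac Q
  recon : RecV Q

/-- `Q'` is a theory with fermions and a stress tensor `T'`, and `Q` with `T` is a bosonic sector of
it. -/
structure Sup (Q : Theory D) (T : Ix → Ix → Fld D) (Q' : Theory D') (i : D →ₗᵢ[ℂ] D')
    (G : D' → D') (T' : Ix → Ix → Fld D') (A' : (V → V) → D' → D') : Prop where
  sect : Sect Q Q' i
  gr : Gr Q' G
  stress : Stress0 Q' T'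
  gnr : Gnr Q' A'
  charges : PCh Q' T' A'
  ext : ∀ m n, Xt i (T m n) (T' m n)

variable (D D') in
/-- The hypotheses imply the conclusion, for all theories with domain `D` and all theories with
fermions with domain `D'`. -/
structure Thm : Prop where
  h : ∀ (Q : Theory D) T A, Hyp Q T A → (CntF Q → MfA Q ∧ FSL Q) ∧
    NoLog Q T ∧ ∃ S J, Q.IsStress S ∧ IsImpr Q T (improveJ S J) ∧
      (∀ Q' : Theory D, IsEnl Q Q' → CInv Q' id S J) ∧
      ∀ (Q' : Theory D') i G T' A', Sup Q T Q' i G T' A' → NoLog Q' T' ∧
        ∃ S' J', Q'.IsStress S' ∧ (∀ m n, Xt i (S m n) (S' m n)) ∧ (∀ m, Xt i (J m) (J' m)) ∧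
          IsImpr Q' T' (improveJ S' J') ∧ CInv Q' G S' J'

variable (D) in
/-- There is a nontrivial theory with domain `D` that satisfies all hypotheses. -/
inductive Wit : Prop
  | mk (Q R : Theory D) (T A O M φ)
    (h : Hyp Q T A ∧ Lc1 Q A O M ∧ EnB Q R A ∧ AnV Q R A ∧ Rec Q ∧ CntF Q ∧ TfGen Q ∧
      Sup Q T Q .id id T A ∧ (∀ B, R.fld B ↔ B ∈ Submodule.span ℂ {φ}) ∧ Q.IsScalar φ 1 ∧
      (∃ f, IsTest f ∧ φ f Q.vac ≠ 0) ∧
      ¬FiniteDimensional ℂ (Completion D) ∧ ∃ f, IsTest f ∧ tr T f Q.vac ≠ 0) : Wit

/-- **Scale invariant theories in four dimensions with one local von Neumann algebra, or with energy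
bounds, or with an analytic vacuum, and the reconstruction of currents are conformally invariant; no
scaling law is assumed for countably many fields; the hypotheses are consistent.**

(1) Hypotheses (`Hyp`). Let `T` be a symmetric conserved stress tensor of the scale invariant theory
`Q` (`Stress0`), with any behaviour under dilations; its charges on space-like hyperplanes are the
generators `A X` of the Poincaré transformations (`PCh`). The vacuum is unique (`UVac`). The fields
form a vector space of countable dimension on which the dilations and the Lorentz transformations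
act (`CntF`). (Alternatively: the vacuum is cyclic for the tensor fields (`TfGen`) or every field is
a finite sum of components of Lorentz multiplets (`MfA`), the dilates of a field are finite linear
combinations of fields (`Cov`), and `T` has a finite scaling law, Jordan blocks being allowed
(`Scl`).) Either the fields smeared in one bounded neighbourhood `O` of the origin are affiliated to a
von Neumann algebra `M`, whose transforms by similitudes that map `O` into opposite wedges commute
(`Lc1`; every covariant local net provides such an algebra); or no algebra is given and the fields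
satisfy energy bounds (`EnB`): all fields of `Q` are bounded by powers of the energy, and the fields
of a subtheory `R` with countably many covariant Bose fields, for which the vacuum is cyclic, are
bounded linearly by the energy; or the domain is generated from the vacuum by the fields, and the
vacuum is an analytic vector for the fields of such a subtheory `R` (`AnV`, a growth condition on the
vacuum expectation values of `R`; no bound is assumed for the other fields). `RecV` is the
reconstruction of currents: every weakly local covariant vector multiplet of dimension three is generated from the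
vacuum by local fields of the theory. Nothing is assumed about conformal transformations, a virial
current, the scaling dimension of `T`, the diagonalisability of the dilations or time ordered
products.

Conclusion (`Thm`). Under `CntF` all fields are finite sums of components of multiplets and have
finite scaling laws (`FSL`). The part of dimension four of `T` has no logarithms (`NoLog`), and `Q`
has a stress tensor `S` of dimension four and a virial current `J` such that
`t = S + (∂J - η ∂·J) / 3` is a traceless improvement of `T`, and `Q` and all theories obtained from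
`Q` by adding local fields are conformally invariant (`CInv`). The same holds for all theories `Q'`
with fermions and a stress tensor `T'` that have `Q` and `T` as a bosonic sector (`Sup`).

(2) (`Wit`) All hypotheses of (1), in all alternatives `Lc1`, `EnB`, `AnV`, and field reconstruction for
all ranks and dimensions (`Rec`), hold for a theory with a nonzero scalar field `φ` of dimension one,
an infinite dimensional Hilbert space and a stress tensor whose trace does not annihilate the vacuum;
the fields of the subtheory `R` are the multiples of `φ` (in the proof: all Wick polynomials in the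
derivatives of the free massless scalar field, with the canonical stress tensor). -/
theorem result :
    (∀ (D D' : Type*) [NormedAddCommGroup D] [InnerProductSpace ℂ D]
      [NormedAddCommGroup D'] [InnerProductSpace ℂ D'], Thm D D') ∧
    ∃ (D : Type) (_ : NormedAddCommGroup D) (_ : InnerProductSpace ℂ D), Wit D :=
  ⟨fun _ _ _ _ _ _ => ⟨fun Q T A ⟨a, b, c, e, f, g⟩ =>
    have ⟨_, _, e⟩ : ∃ O M, Lc1 Q A O M := e.elim id fun ⟨_, e⟩ =>
      ⟨_, (e.elim P352R.L22.lc1 P352R.Bz.lc1) (Metric.ball_mem_nhds 0 one_pos)
        Metric.isBounded_ball⟩
    have e := P352R.L1.lnm e (c.elim (P352R.L1.cd_cnt e.toRep) fun c => c.2.1)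
    have ⟨c, d, k⟩ := P352R.Br.fieldsR a e c
    have ⟨x, S, J, y, z, u, w⟩ := P352R.Br.finalV Q T a A b c d k _ e f g
    ⟨P352R.Br.cntF e, x, S, J, y, z, u, fun Q i G T A ⟨a, b, c, d, e, g⟩ =>
      w Q i G T A a b c d e g⟩⟩,
    have ⟨D, i, j, Q, R, T, A, _, φ, ⟨⟨a, b, _, _, e, f, g⟩, h, _, ⟨l, m, n⟩, _, r⟩, c, p, u, q, s,
      t⟩ := P352R.Bz.witR
    ⟨D, i, j, Q, R, T, A, _, _, φ, ⟨a, b, .inl c, .inr ⟨R, .inr u⟩, f, g 1 3⟩, P352R.L1.lc1 e, p, u, g,
      c, h, ⟨l, m, a, n, b, fun _ _ _ _ _ => rfl⟩, q, s, t, r⟩⟩

end Vale.Agent.Results.P352.AARecF
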